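import Vale.Agent.P236J.Defs

/-!
# P236J / Cmp : the comparison map is an isomorphism in every window `K / K'` with `K J ≤ K'`
-/

noncomputable section

namespace Vale.Agent.P236EL

open MvPolynomial Ch

section row

variable {B : Type*} [CommRing B] {ι κ μ : Type} [Fintype ι] {p : ℕ} {L : Type} [CommRing L]

theorem row_exactJ [Fintype κ] [Fintype μ] {F : Type} [Field F] {π : L →+* F}
    (hπ : Function.Surjective π) {d₁ : ι → ℤ} {d₂ : κ → ℤ} {d₃ : μ → ℤ} {M₁ : Mx ι κ (AA L)}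
    {M₂ : Mx κ μ (AA L)} (h₁ : HomM p d₁ d₂ M₁) (h₂ : HomM p d₂ d₃ M₂) {T : ℤ}
    (hex : ExF p π d₁ d₂ M₁ M₂ T) {𝒜 : ℤ → AddSubgroup B} [SetLike.GradedMonoid 𝒜]
    (hneg : ∀ n < 0, ∀ b ∈ 𝒜 n, b = 0) {x : AA L →+* B} (hx : GrPt p 𝒜 x) {φ : B →+* B}
    (hφ : φ.comp x = x) (J : ℕ → Ideal B) (hJ : ∀ k, J k ≤ J 0)
    (hJ' : ∀ k, J k * (RingHom.ker (red π)).map x ≤ J (k + 1)) {J' : Ideal B} {R : ℕ} {n : ℤ}
    (hR : ∀ a ∈ Pc p 𝒜 φ (J R) d₂ n, a ∈ Zc κ J') (hn : n ≤ T)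
    (hsq : ∀ b ∈ Pc p 𝒜 φ (J 0) d₁ n, op x M₂ (op x M₁ b) ∈ Zc μ J') {a : κ → MvPolynomial ℕ B}
    (ha : a ∈ Pc p 𝒜 φ (J 0) d₂ n) (ha' : op x M₂ a ∈ Zc μ J') :
    ∃ b ∈ Pc p 𝒜 φ (J 0) d₁ n, a - op x M₁ b ∈ Zc κ J' := by
  classical
  obtain ⟨H, H', hH, hH', h0⟩ := exists_contraction hπ h₂ hex
  have key : ∀ k, ∃ b ∈ Pc p 𝒜 φ (J 0) d₁ n, ∃ a' ∈ Pc p 𝒜 φ (J k) d₂ n,
      a - op x M₁ b - a' ∈ Zc κ J' ∧ op x M₂ a' ∈ Zc μ J' := by
    intro k
    induction k with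
    | zero => exact ⟨0, AddSubgroup.zero_mem _, a, ha, by
        rw [map_zero, sub_zero, sub_self]; exact AddSubgroup.zero_mem _, ha'⟩
    | succ k ih =>
      obtain ⟨b, hb, a', h1, h2, h3⟩ := ih
      have h4 := op_mem_Pc hx hφ hH h1
      have h5 : op x H a' ∈ Pc p 𝒜 φ (J 0) d₁ n :=
        fun w => ⟨(h4 w).1, (h4 w).2.1, fun E => hJ k ((h4 w).2.2 E)⟩
      have h6 : op x H' (op x M₂ a') ∈ Zc κ J' := op_mem_ideal h3
      have h7 := AddSubgroup.sub_mem _ (AddSubgroup.sub_mem _ h1 (op_mem_Pc hx hφ h₁ h4))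
        (op_mem_Pc hx hφ hH' (op_mem_Pc hx hφ h₂ h1))
      have h8 : a' - op x M₁ (op x H a') - op x H' (op x M₂ a') = op x (fun j E k =>
          bs (AA L) j E k - op (RingHom.id _) M₁ (H j E) k - op (RingHom.id _) H' (M₂ j E) k) a' := by
        refine lin_congr (f := LinearMap.id - (op x M₁).comp (op x H) - (op x H').comp (op x M₂))
          fun j E _ => ?_
        funext k
        simp only [LinearMap.sub_apply, LinearMap.id_apply, LinearMap.comp_apply, op_bs, map_sub,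
          map_op, RingHom.comp_id, map_bs, Pi.sub_apply]
      refine ⟨b + op x H a', AddSubgroup.add_mem _ hb h5, _,
        fun w => ⟨(h7 w).1, (h7 w).2.1, fun E => hJ' k ?_⟩, ?_, ?_⟩
      · rw [h8]
        refine op_mem_mul (fun w => (h1 w).2.2) (fun j E hE k E' => ?_) w E
        have h9 := weight_le_of_coeff hneg (h1 j).1 hE
        rw [RingHom.mem_ker, ← coeff_map, h0 j E (by omega), coeff_zero]
      · have h9 := AddSubgroup.add_mem _ h2 h6
        rw [map_add]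
        convert h9 using 1
        abel
      · rw [map_sub, map_sub]
        exact AddSubgroup.sub_mem _ (AddSubgroup.sub_mem _ h3 (hsq _ h5)) (op_mem_ideal h6)
  obtain ⟨b, hb, a', h1, h2, -⟩ := key R
  refine ⟨b, hb, ?_⟩
  have h4 := AddSubgroup.add_mem _ h2 (hR a' h1)
  rwa [sub_add_cancel] at h4

end row

variable {p : ℕ} [hp : Fact p.Prime] {L : Type} [CommRing L]

theorem exists_bound {ι : Type} [Fintype ι] (d : ι → ℤ) (w : ℤ) : ∃ j : ℕ, ∀ i, w - d i < j := by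
  classical
  refine ⟨∑ i, ((w - d i).toNat + 1), fun i => ?_⟩
  have h := Finset.single_le_sum (f := fun i => (w - d i).toNat + 1) (fun i _ => Nat.zero_le _)
    (Finset.mem_univ i)
  have h1 := Int.self_le_toNat (w - d i)
  omega

theorem eq_zero_of_Fil {m j : ℕ} (hm : (p : L) ^ m = 0) {w : ℤ} (hw : w < j) {F : CC L}
    (hF : F ∈ WC p L w) (hF' : F ∈ Fil p (II p L ^ (m + j))) : F = 0 := by
  have h := coeff_mem_of_Fil hw hF hF'
  rwa [hm, Ideal.span_singleton_zero, Ideal.map_bot, Ideal.mem_bot] at h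

theorem row_exact_CJ {ι κ μ : Type} [Fintype ι] [Fintype κ] [Fintype μ] {F : Type} [Field F]
    {π : L →+* F} (hπ : Function.Surjective π) (hπ' : RingHom.ker π ≤ Ideal.span {(p : L)})
    (hnil : IsNilpotent (p : L)) {d₁ : ι → ℤ} {d₂ : κ → ℤ} {d₃ : μ → ℤ} {M₁ : Mx ι κ (AA L)}
    {M₂ : Mx κ μ (AA L)} (h₁ : HomM p d₁ d₂ M₁) (h₂ : HomM p d₂ d₃ M₂) {T : ℤ}
    (hex : ExF p π d₁ d₂ M₁ M₂ T) (n : ℕ) {K K' : Ideal (AA L)} {w : ℤ} (hw : w ≤ T)
    (hsq : ∀ b ∈ Pc p (WC p L) (pb p L fun k => min k n) (Fil p K) d₁ w,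
      op ((univ L).pt p n) M₂ (op ((univ L).pt p n) M₁ b) ∈ Zc μ (Fil p K'))
    {a : κ → MvPolynomial ℕ (CC L)}
    (ha : a ∈ Pc p (WC p L) (pb p L fun k => min k n) (Fil p K) d₂ w)
    (ha' : op ((univ L).pt p n) M₂ a ∈ Zc μ (Fil p K')) :
    ∃ b ∈ Pc p (WC p L) (pb p L fun k => min k n) (Fil p K) d₁ w,
      a - op ((univ L).pt p n) M₁ b ∈ Zc κ (Fil p K') := by
  obtain ⟨m, hm⟩ := hnil
  obtain ⟨j, hj⟩ := exists_bound d₂ w
  have h := row_exactJ hπ h₁ h₂ hex (fun _ hn _ hb => WC_neg hn hb) (grCh_univ.pt n)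
    (φ := pb p L fun k => min k n) (RingHom.ext fun a => pt_mem_Loc n a)
    (fun k => Fil p (K * II p L ^ k))
    (fun k => Fil_mono (by rw [pow_zero, mul_one]; exact Ideal.mul_le_left))
    (fun k => by
      rw [pow_succ, ← mul_assoc, Fil_mul (K * II p L ^ k)]
      exact Ideal.mul_mono_right ((Ideal.map_mono (ker_red_le hπ')).trans (inv_II.pt _ n)))
    (R := m + j) (J' := Fil p K') (fun a ha i E => by
      have h0 : 0 ≤ Finsupp.weight (wz p) E := by
        rw [Finsupp.weight_apply, Finsupp.sum]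
        exact Finset.sum_nonneg fun i _ => nsmul_nonneg (Int.natCast_nonneg _) _
      rw [eq_zero_of_Fil hm (by have := hj i; omega) ((ha i).1 E)
        (Fil_mono Ideal.mul_le_right ((ha i).2.2 E))]
      exact zero_mem _) hw (a := a)
  simp only [pow_zero, mul_one] at h
  exact h hsq ha ha'

namespace Rs

variable {G : ℕ → Type} [∀ q, Fintype (G q)] {R : Rs p L G} {F : Type} [Field F] {π : L →+* F}
  {Q : ℕ} {T : ℤ} {w : ℤ} {J K K' : Ideal (AA L)}

theorem OkJ.sq (h : R.OkJ π J Q T) (hw : w ≤ T) (hK : Inv p K) (hK' : Inv p K')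
    (hKK : K * J ≤ K') : (R.dc w hK hK').Sq Q := R.sq_dc h.inv h.k1 hw hK hK' hKK

theorem OkJ.ex (h : R.OkJ π J Q T) (hw : w ≤ T) (hK : Inv p K) (hK' : Inv p K')
    (hKK : K * J ≤ K') : (R.dc w hK hK').Ex Q := by
  intro n q x hq hx hx'
  have hsq := h.sq hw hK hK' hKK (n + 1) q
  replace hx : x ∈ PW p (R.deg (q + 1)) w K (n + 1) := hx
  have h3 : op ((univ L).pt p n) (My p (R.y q)) (fun i => ((univ L).gen n).ev (x i)) ∈
      Zc _ (Fil p K') := by
    rw [gen_dd]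
    exact fun k => coeff_gen_mem_Fil n (hx' k)
  rcases q with _ | q
  · have h4 : ∀ b ∈ Pc p (WC p L) (pb p L fun k => min k n) (Fil p K) (R.deg 0) w,
        op ((univ L).pt p n) (Me R.e) b =
          fun k => ((univ L).gen n).ev (tw p n R.e (fun c => coeff 0 (b c)) k) := fun b hb => by
      funext k
      rw [op_Me, gen_tw _ fun i => (coeff_mem_PW hb i).1]
    obtain ⟨b, hb, h5⟩ := row_exact_CJ h.surj h.ker h.nil (homM_Me R.he) (homM_My (R.hy 0)) (T := T)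
      (fun e he a ha h' => by
        rw [op_My] at h'
        obtain ⟨b, hb, hb'⟩ := h.k2.aug e he a ha h'
        refine ⟨fun c => C (b c), fun c => ?_, funext fun k => by simp [op_Me, hb']⟩
        by_cases h0 : b c = 0
        · simp only [h0, map_zero]
          exact isWeightedHomogeneous_zero _ _ _
        · rw [hb c h0, sub_self]
          exact isWeightedHomogeneous_C _ _) n hw
      (fun b hb => by
        rw [h4 b hb, gen_dd]
        exact fun k => coeff_gen_mem_Fil n (hsq _ hq (coeff_mem_PW hb) k))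
      (gen_mem_Pc n hx) h3
    refine ⟨_, coeff_mem_PW hb, mem_ZW_of_gen (fun i => sub_mem (hx i).1
      (tw_mem_PW hK R.he (coeff_mem_PW hb) i).1) ?_⟩
    rw [h4 b hb] at h5
    simp only [Pi.sub_apply, map_sub]
    exact h5
  · have h4 : ∀ b ∈ Pc p (WC p L) (pb p L fun k => min k n) (Fil p K) (R.deg (q + 1)) w,
        op ((univ L).pt p n) (My p (R.y q)) b = fun k => ((univ L).gen n).ev
          (R.dd (n + 1) (q + 1) (fun i => back L n (b i)) k) := fun b hb => by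
      rw [← gen_dd]
      congr 1
      exact funext fun i => (back_spec (coeff_mem_Loc_of_Pc hb i)).2.symm
    obtain ⟨b, hb, h5⟩ := row_exact_CJ h.surj h.ker h.nil (homM_My (R.hy q))
      (homM_My (R.hy (q + 1))) (T := T)
      (fun e he a ha h' => by
        rw [op_My] at h'
        simpa only [op_My] using h.k2.ex q hq e he a ha h') n hw
      (fun b hb => by
        rw [h4 b hb, gen_dd]
        exact fun k => coeff_gen_mem_Fil n (hsq _ hq (back_mem_PW hb) k))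
      (gen_mem_Pc n hx) h3
    refine ⟨_, back_mem_PW hb, mem_ZW_of_gen (fun i => sub_mem (hx i).1
      (R.dd_mem_WW hK w (n + 1) (q + 1) (back_mem_PW hb) i).1) ?_⟩
    rw [h4 b hb] at h5
    simp only [Pi.sub_apply, map_sub]
    exact h5

theorem OkJ.in_dc (h : R.OkJ π J Q T) (hK : Inv p K) (hK' : Inv p K') : (R.dc w hK hK').In := by
  intro n x hx hx'
  replace hx : x ∈ PW p (R.deg 0) w K n := hx
  obtain ⟨b, -, h5⟩ := row_exact_CJ h.surj h.ker h.nil (homM_M0 (R.deg 0)) (homM_Me R.he) (T := w)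
    (fun e _ a ha h' => by
      have h3 := h.k2.inj (fun c => coeff 0 (a c)) fun k => by rw [← op_Me, h']; rfl
      refine ⟨a, ha, funext fun k => ?_⟩
      rw [op_M0, show coeff 0 (a k) = 0 from congrFun h3 k, map_zero, sub_zero]) n le_rfl
    (K := K) (K' := K') (fun b _ k E => by simp [op_Me, op_M0]) (a := fun c => C (x c))
    (fun c => ⟨C_mem_ext (hx c).2.1, by rw [map_C, (hx c).1]; rfl, fun E => by
      classical
      rw [coeff_C]
      split_ifs
      · exact (hx c).2.2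
      · exact zero_mem _⟩)
    (fun k E => by
      have h3 := coeff_gen_mem_Fil n (hx' k) E
      rw [op_Me]
      simp only [coeff_zero_C]
      rwa [← gen_tw _ fun i => (hx i).1])
  intro c
  simpa [op_M0] using h5 c 0

/-- `Phi` is injective on the cohomology of a window -/
theorem Phi_injJ {s : ℕ} (h : R.OkJ π J s T) (hw : w ≤ T) (hK : Inv p K) (hK' : Inv p K')
    (hKK : K * J ≤ K') {x : G 0 → CC L} (hx : x ∈ PW p (R.deg 0) w K s)
    (h1 : cD p R.th s x ∈ ZW p _ K') {u : G s → AA L} (hu : u ∈ PA p (R.deg s) w K)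
    (h2 : R.Phi s x - R.sd s u ∈ ZA _ K') :
    ∃ y ∈ PW p (R.deg 0) w K (s - 1), x - R.dv s 0 y ∈ ZW p _ K' := by
  refine DC.inj (h.sq hw hK hK' hKK) (h.ex hw hK hK' hKK) (h.in_dc hK hK') hx h1
    (up_mem_WW hu) ?_
  have h3 := up_mem_ZW (p := p) h2
  rw [map_sub, up_Phi hK hx, ← dd_up] at h3
  exact h3

/-- `Phi` is surjective on the cohomology of a window -/
theorem Phi_surjJ {s : ℕ} (h : R.OkJ π J (s + 1) T) (hw : w ≤ T) (hK : Inv p K) (hK' : Inv p K')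
    (hKK : K * J ≤ K') {u : G (s + 1) → AA L} (hu : u ∈ PA p (R.deg (s + 1)) w K)
    (h1 : R.sd (s + 1) u ∈ ZA _ K') :
    ∃ x ∈ PW p (R.deg 0) w K s, cD p R.th s x ∈ ZW p _ K' ∧
      ∃ u' ∈ PA p (R.deg s) w K, R.Phi s x - u - R.sd s u' ∈ ZA _ K' := by
  obtain ⟨x, hx, h2, u', hu', h3⟩ := DC.surj ((h.sq hw hK hK' hKK).mono (Nat.le_succ s))
    (h.ex hw hK hK' hKK) (h.in_dc hK hK') (up_mem_WW hu) (by
      have h3 := up_mem_ZW (p := p) h1
      rw [← dd_up] at h3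
      exact h3)
  obtain ⟨h4, h5⟩ := down_mem_of_WW hu'
  refine ⟨x, hx, h2, _, h4, ?_⟩
  have h6 := down_mem_ZA h3
  rw [← h5] at h6
  change down _ (R.TT _ _ _ _ x - up p _ u - R.dd 0 s (up p _ _)) ∈ _ at h6
  rwa [dd_up, map_sub, map_sub, down_up, down_up] at h6

/-- the cone of `Phi` is exact in a window -/
theorem Phi_coneJ {s : ℕ} (h : R.OkJ π J (s + 1) T) (hw : w ≤ T) (hK : Inv p K) (hK' : Inv p K')
    (hKK : K * J ≤ K') {x : G 0 → CC L} (hx : x ∈ PW p (R.deg 0) w K (s + 1))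
    (h1 : cD p R.th (s + 1) x ∈ ZW p _ K') {u : G (s + 1) → AA L}
    (hu : u ∈ PA p (R.deg (s + 1)) w K) (h2 : R.Phi (s + 1) x - R.sd (s + 1) u ∈ ZA _ K') :
    ∃ y ∈ PW p (R.deg 0) w K s, x - cD p R.th s y ∈ ZW p _ K' ∧
      ∃ u' ∈ PA p (R.deg s) w K, u - R.Phi s y - R.sd s u' ∈ ZA _ K' := by
  obtain ⟨y, hy, h2, u', hu', h3⟩ := DC.cone (h.sq hw hK hK' hKK) (h.ex hw hK hK' hKK)
    (h.in_dc hK hK') hx h1 (up_mem_WW hu) (by
      have h3 := up_mem_ZW (p := p) h2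
      rw [map_sub, up_Phi hK hx, ← dd_up] at h3
      exact h3)
  obtain ⟨h4, h5⟩ := down_mem_of_WW hu'
  refine ⟨y, hy, h2, _, h4, ?_⟩
  have h6 := down_mem_ZA h3
  rw [← h5] at h6
  change down _ (up p _ u - R.TT _ _ _ _ y - R.dd 0 s (up p _ _)) ∈ _ at h6
  rwa [dd_up, map_sub, map_sub, down_up, down_up] at h6

end Rs

end Vale.Agent.P236EL

end
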