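import Vale.Agent.P236J3.Up
import Vale.Agent.P236EL.Rep

/-!
# P236J / Defs : windows of ideals for resolutions whose curvature lies in an invariant ideal `J`
-/

noncomputable section

namespace Vale.Agent.P236EL

open Vale.Agent.P251.F Vale.Agent.P251.F.F3 Vale.Agent.P257.H80 LawRing MvPolynomial

variable {p : ℕ} [hp : Fact p.Prime] {G : ℕ → Type} [∀ q, Fintype (G q)]

namespace Rs

variable {L : Type} [CommRing L] (R : Rs p L G)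

/-- all the hypotheses on a resolution with curvature in `J` -/
structure OkJ {F : Type} [Field F] (π : L →+* F) (J : Ideal (AA L)) (Q : ℕ) (T : ℤ) : Prop where
  surj : Function.Surjective π
  ker : RingHom.ker π ≤ Ideal.span {(p : L)}
  nil : IsNilpotent (p : L)
  inv : Inv p J
  k1 : R.K1 J Q T
  k2 : R.K2 π Q T

variable {R} {s : ℕ} {w : ℤ} {K K' K₁ K₁' : Ideal (AA L)} {u : G (s + 1) → AA L}

theorem sd_mem_BdJ {y : G s → AA L} (hy : y ∈ PA p (R.deg s) w K) : R.sd s y ∈ R.BdJ s w K K' :=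
  AddSubgroup.mem_sup_left ⟨y, hy, rfl⟩

theorem BdJ_le_ZA (hK : Inv p K₁) (h : K ≤ K₁) (h' : K' ≤ K₁) : R.BdJ s w K K' ≤ ZA _ K₁ := by
  refine sup_le ?_ (ZA_mono h')
  rintro _ ⟨y, hy, rfl⟩
  exact sd_mem_ZA hK fun i => h (hy i).2

theorem K1.monoJ {J J' : Ideal (AA L)} {Q Q' : ℕ} {T T' : ℤ} (h : R.K1 J Q T) (hJ : J ≤ J')
    (hQ : Q' ≤ Q) (hT : T' ≤ T) : R.K1 J' Q' T' :=
  ⟨fun c w' => hJ (h.aug c w'), fun q hq w w'' E hE => hJ (h.sq q (by omega) w w'' E (by omega))⟩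

variable {F : Type} [Field F] {π : L →+* F} {J : Ideal (AA L)} {Q : ℕ} {T : ℤ}

theorem OkJ.mono {Q' : ℕ} {T' : ℤ} (h : R.OkJ π J Q T) (hQ : Q' ≤ Q) (hT : T' ≤ T) :
    R.OkJ π J Q' T' :=
  ⟨h.surj, h.ker, h.nil, h.inv, h.k1.monoJ le_rfl hQ hT, h.k2.inj,
    fun e he => h.k2.aug e (by omega), fun q hq e he => h.k2.ex q (by omega) e (by omega)⟩

theorem OkJ.of_le {J' : Ideal (AA L)} (h : R.OkJ π J Q T) (hJ : J ≤ J') (hJ' : Inv p J') :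
    R.OkJ π J' Q T := ⟨h.surj, h.ker, h.nil, hJ', h.k1.monoJ hJ le_rfl le_rfl, h.k2⟩

theorem Ok.okJ {r : ℕ} (h : R.Ok π r Q T) (hn : IsNilpotent (p : L)) :
    R.OkJ π (II p L ^ r) Q T := ⟨h.surj, h.ker, hn, inv_II.pow r, h.k1, h.k2⟩

theorem OkJ.ok {r : ℕ} (h : R.OkJ π J Q T) (hJ : J ≤ II p L ^ r) : R.Ok π r Q T :=
  ⟨h.surj, h.ker, h.k1.monoJ hJ le_rfl le_rfl, h.k2⟩

end Rs

variable {Q : ℕ} (hQ : PLoc p (ZMod Q)) (R : Rs p (ZMod Q) G)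

/-- the chart `x` of filtration `K` is represented by `u` modulo filtration `K'` -/
structure RvJ (s : ℕ) (w : ℤ) (K K' : Ideal (AA (ZMod Q))) (x : G 0 → Cob Laz s)
    (u : G (s + 1) → AA (ZMod Q)) : Prop where
  cw : x ∈ CW p Laz (R.deg 0) w s
  fl : x ∈ Fl hQ _ s K
  bd : Ph hQ R s x - u ∈ R.BdJ s w K K'

variable {hQ R}

theorem Rv.rvJ {s a b : ℕ} {w : ℤ} {x : G 0 → Cob Laz s} {u : G (s + 1) → AA (ZMod Q)}
    (h : Rv hQ R s w a b x u) : RvJ hQ R s w (II p (ZMod Q) ^ a) (II p (ZMod Q) ^ b) x u :=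
  ⟨h.cw, h.fl, h.bd⟩

theorem RvJ.rv {s a b : ℕ} {w : ℤ} {x : G 0 → Cob Laz s} {u : G (s + 1) → AA (ZMod Q)}
    (h : RvJ hQ R s w (II p (ZMod Q) ^ a) (II p (ZMod Q) ^ b) x u) : Rv hQ R s w a b x u :=
  ⟨h.cw, h.fl, h.bd⟩

end Vale.Agent.P236EL

end
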