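import Vale.Agent.P236J.Tool

/-!
# P236J / Near : two resolutions which agree modulo an invariant ideal
-/

noncomputable section

namespace Vale.Agent.P236EL

open Vale.Agent.P251.F Vale.Agent.P251.F.F3 Vale.Agent.P257.H80 LawRing MvPolynomial Ch

variable {p : ℕ} [hp : Fact p.Prime] {G : ℕ → Type} [∀ q, Fintype (G q)]
  {F : Type} [Field F]

section

variable {L : Type} [CommRing L] {B : Type*} [CommRing B]

omit hp in
theorem rAp_sub (x : AA L →+* B) (r r' : (ℕ →₀ ℕ) → AA L) (g : MvPolynomial ℕ B) :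
    rAp x r' g - rAp x r g = rAp x (fun E => r' E - r E) g := by
  simp only [rAp_eq, map_sub, mul_sub, Finset.sum_sub_distrib]

omit hp in
theorem rAp_sub_mem {x : AA L →+* B} {r r' : (ℕ →₀ ℕ) → AA L} {K : Ideal (AA L)}
    (h : ∀ E, r' E - r E ∈ K) {J : Ideal B} {g : MvPolynomial ℕ B} (hg : ∀ E, coeff E g ∈ J) :
    rAp x r' g - rAp x r g ∈ J * K.map x := by
  rw [rAp_sub]
  exact rAp_mem_mul hg fun E _ => h E

omit hp in
theorem map_red_II {π : L →+* F} (hn : IsNilpotent (p : L)) : (II p L).map (red π) = ⊥ := by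
  rw [II, Ideal.map_span, Ideal.span_eq_bot]
  rintro _ ⟨a, rfl | ⟨i, rfl⟩, rfl⟩
  · rw [map_natCast, ← map_natCast π]
    exact (hn.map π).eq_zero
  · simp [red]

end

namespace Rs

variable {L : Type} [CommRing L]

/-- the resolutions agree modulo `K₀` in the first `n` degrees -/
structure Near (R R' : Rs p L G) (K₀ : Ideal (AA L)) (n : ℕ) : Prop where
  inv : Inv p K₀
  deg : R'.deg = R.deg
  th : R'.th = R.th
  e : R'.e = R.e
  y : ∀ q < n, ∀ w w' E, R'.y q w w' E - R.y q w w' E ∈ K₀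

namespace Near

variable {R R' : Rs p L G} {π : L →+* F} {J K K' K₀ K₁ : Ideal (AA L)} {n s Q : ℕ} {w T : ℤ}

theorem symm (h : Near R R' K₀ n) : Near R' R K₀ n :=
  ⟨h.inv, h.deg.symm, h.th.symm, h.e.symm, fun q hq w w' E => by
    simpa using neg_mem (h.y q hq w w' E)⟩

theorem mono {m : ℕ} (h : Near R R' K₀ n) (hm : m ≤ n) : Near R R' K₀ m :=
  ⟨h.inv, h.deg, h.th, h.e, fun q hq => h.y q (by omega)⟩

theorem st (h : Near R R' K₀ n) (hK : Inv p K) (m : ℕ) {q : ℕ} (hq : q ≤ n) {x x' : G q → CC L}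
    (hx : x ∈ ZW p _ K) (hx' : x' - x ∈ ZW p _ (K * K₀)) :
    R'.st m q x' - R.st m q x ∈ ZW p _ (K * K₀) := by
  have hKK := hK.mul h.inv
  have h1 : R'.st m q (x' - x) ∈ ZW p _ (K * K₀) :=
    fun i => pb_mem_Fil hKK (dg_mono m) (R'.dd_mem_ZW hKK (m + 1) q hx' i)
  have h2 : R'.st m q x - R.st m q x ∈ ZW p _ (K * K₀) := by
    rcases q with _ | q
    · have h3 : R'.st m 0 x = R.st m 0 x := by
        change pw (G 1) (sg p L m).toAddMonoidHom (tw p m R'.e x) =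
          pw (G 1) (sg p L m).toAddMonoidHom (tw p m R.e x)
        rw [h.e]
      rw [h3, sub_self]
      exact zero_mem _
    · intro w'
      rw [Pi.sub_apply, st_succ, st_succ, ← Finset.sum_sub_distrib, Fil_mul]
      exact Ideal.sum_mem _ fun w _ => Ideal.mul_mono_right (h.inv.pt _ m)
        (rAp_sub_mem (h.y q hq w w') (coeff_gen_mem_Fil m (hx w)))
  have h3 := add_mem h1 h2
  rwa [map_sub, sub_add_sub_cancel] at h3

theorem TT (h : Near R R' K₀ n) (hK : Inv p K) (m q : ℕ) (e : q + m = s) (hs : s ≤ n + 1)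
    {x x' : G q → CC L} (hx : x ∈ ZW p _ K) (hx' : x' - x ∈ ZW p _ (K * K₀)) :
    R'.TT m q s e x' - R.TT m q s e x ∈ ZW p _ (K * K₀) := by
  induction m generalizing q with
  | zero =>
    obtain rfl : q = s := e
    exact hx'
  | succ m ih =>
    exact ih (q + 1) (by omega)
      (fun i => pb_mem_Fil hK (dg_mono m) (R.dd_mem_ZW hK (m + 1) q hx i))
      (h.st hK m (by omega) hx hx')

theorem Phi (h : Near R R' K₀ n) (hs : s ≤ n) (hK : Inv p K) {x : G 0 → CC L}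
    (hx : x ∈ ZW p _ K) : R'.Phi s x - R.Phi s x ∈ ZA _ (K * K₀) := by
  rw [Phi_apply, Phi_apply, ← map_sub]
  exact down_mem_ZA (h.TT hK _ _ _ (by omega) hx (by rw [sub_self]; exact zero_mem _))

theorem star (h : Near R R' K₀ n) (m q : ℕ) (e : q + m = s) (hs : s ≤ n + 1) (hK : Inv p K)
    (hK₁ : Inv p K₁) {θ : CC L} (hθ : θ ∈ Fil p K₁) {u : G q → AA L} (hu : u ∈ ZA _ K) :
    R'.star m q s e θ u - R.star m q s e θ u ∈ ZA _ (K₁ * K * K₀) := by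
  rw [star_apply, star_apply, ← map_sub]
  exact down_mem_ZA (h.TT (hK₁.mul hK) _ _ _ hs (cup_mem_ZW hK m hθ (up_mem_ZW hu))
    (by rw [sub_self]; exact zero_mem _))

theorem dl (h : Near R R' K₀ n) (hs : s < n) (hK : Inv p K) (g : GG L) {u : G (s + 1) → AA L}
    (hu : u ∈ ZA _ K) : R'.dl s g u - R.dl s g u ∈ ZA _ (K * K₀) := by
  have h1 := h.star 1 (s + 1) rfl (by omega) hK inv_top (θ := (univ L).arr p 0 g)
    (by rw [Fil_top]; trivial) hu
  rwa [star_arr, star_arr, Ideal.top_mul] at h1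

theorem sd (h : Near R R' K₀ n) (hs : s ≤ n) (hK : Inv p K) {u : G s → AA L} (hu : u ∈ ZA _ K) :
    R'.sd s u - R.sd s u ∈ ZA _ (K * K₀) := by
  rcases s with _ | s
  · exact (sub_self (0 : G 1 → AA L)).symm ▸ zero_mem _
  · rw [← dl_one, ← dl_one]
    exact h.dl hs hK 1 hu

theorem BdJ_le (h : Near R R' K₀ n) (hs : s ≤ n) (hK : Inv p K) (hKK : K * K₀ ≤ K') :
    R.BdJ s w K K' ≤ R'.BdJ s w K K' := fun u hu => by
  obtain ⟨y, hy, h1⟩ := mem_BdJ.1 hu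
  refine mem_BdJ.2 ⟨y, h.deg ▸ hy, ?_⟩
  simpa using sub_mem h1 (ZA_mono hKK (h.sd hs hK fun i => (hy i).2))

theorem BdJ (h : Near R R' K₀ n) (hs : s ≤ n) (hK : Inv p K) (hKK : K * K₀ ≤ K') :
    R'.BdJ s w K K' = R.BdJ s w K K' :=
  le_antisymm (h.symm.BdJ_le hs hK hKK) (h.BdJ_le hs hK hKK)

theorem CyJ_le (h : Near R R' K₀ n) (hs : s < n) (hK : Inv p K) (hKK : K * K₀ ≤ K') :
    R.CyJ s w K K' ≤ R'.CyJ s w K K' := fun u hu =>
  mem_CyJ.2 ⟨h.deg ▸ hu.1, by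
    simpa using add_mem (ZA_mono hKK (h.sd hs hK fun i => (hu.1 i).2)) hu.2⟩

theorem CyJ (h : Near R R' K₀ n) (hs : s < n) (hK : Inv p K) (hKK : K * K₀ ≤ K') :
    R'.CyJ s w K K' = R.CyJ s w K K' :=
  le_antisymm (h.symm.CyJ_le hs hK hKK) (h.CyJ_le hs hK hKK)

omit hp in
theorem pow_le {a b r : ℕ} (hb : b ≤ a + r) : II p L ^ a * II p L ^ r ≤ II p L ^ b := by
  rw [← pow_add]
  exact Ideal.pow_le_pow_right hb

theorem Bd {a b r : ℕ} (h : Near R R' (II p L ^ r) n) (hs : s ≤ n) (hb : b ≤ a + r) :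
    R'.Bd s w a b = R.Bd s w a b := h.BdJ hs (inv_II.pow a) (pow_le hb)

theorem Cy {a b r : ℕ} (h : Near R R' (II p L ^ r) n) (hs : s < n) (hb : b ≤ a + r) :
    R'.Cy s w a b = R.Cy s w a b := h.CyJ hs (inv_II.pow a) (pow_le hb)

theorem dx (h : Near R R' K₀ n) (hK : K₀ ≤ II p L) (hn : IsNilpotent (p : L)) {q : ℕ}
    (hq : q < n) : dx p (red π) (R'.y q) = dx p (red π) (R.y q) := by
  refine LinearMap.ext fun a => funext fun k => ?_
  rw [dx_apply, dx_apply]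
  refine Finset.sum_congr rfl fun i _ => ?_
  have h1 := rAp_sub_mem (x := etax p (red π)) (fun E => hK (h.y q hq i k E)) (J := ⊤)
    (g := delx p (red π) (a i)) fun _ => trivial
  have h2 := inv_II.etax (red π) (Ideal.mul_le_right h1)
  rwa [map_red_II hn, Ideal.map_bot, Ideal.mem_bot, sub_eq_zero] at h2

theorem k2 (h : Near R R' K₀ n) (hK : K₀ ≤ II p L) (hn : IsNilpotent (p : L)) (h0 : 0 < n)
    (hQ : Q ≤ n) (h2 : R.K2 π Q T) : R'.K2 π Q T := by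
  refine ⟨?_, ?_, fun q hq => ?_⟩
  · rw [h.e]
    exact h2.inj
  · rw [h.e, h.deg, h.dx hK hn h0]
    exact h2.aug
  · rw [h.deg, h.dx hK hn (show q < n by omega), h.dx hK hn (show q + 1 < n by omega)]
    exact h2.ex q hq

/-- the hypotheses for the new resolution -/
theorem okJ {r Q' : ℕ} {T' : ℤ} (h : Near R R' K₀ n) (hK : K₀ ≤ II p L) (hn : IsNilpotent (p : L))
    (h0 : 0 < n) (hQ : Q ≤ n) (hR : R.Ok π r Q' T') (hQ' : Q ≤ Q') (hT : T ≤ T') (hJ : Inv p J)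
    (h1 : R'.K1 J Q T) : R'.OkJ π J Q T :=
  ⟨hR.surj, hR.ker, hn, hJ, h1, h.k2 hK hn h0 hQ (hR.mono hQ' hT).k2⟩

theorem tens [Unique (G 0)] {ι : Type} [Fintype ι] [DecidableEq ι] (h : Near R R' K₀ n)
    {h0 : R.deg 0 default = 0} {h1 : R.th default default = 1} {h0' : R'.deg 0 default = 0}
    {h1' : R'.th default default = 1} (Y : Cm p L ι) :
    Near (R.tens h0 h1 Y) (R'.tens h0' h1' Y) K₀ n := by
  refine ⟨h.inv, funext fun q => ?_, rfl, ?_, fun q hq w w' E => ?_⟩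
  · rcases q with _ | q
    · rfl
    · change (fun wc : G (q + 1) × ι => R'.deg (q + 1) wc.1 + Y.d wc.2) =
        fun wc => R.deg (q + 1) wc.1 + Y.d wc.2
      rw [h.deg]
  · change (fun c (wc : G 1 × ι) => R'.e default wc.1 * Y.th c wc.2) =
      fun c wc => R.e default wc.1 * Y.th c wc.2
    rw [h.e]
  · have h2 := rAp_sub_mem (x := RingHom.id _) (h.y q hq w.1 w'.1) (J := ⊤)
      (g := Y.ps w.2 w'.2 * monomial E 1) fun _ => trivial
    rwa [Ideal.top_mul, Ideal.map_id] at h2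

end Near

end Rs

variable {Q : ℕ} {hQ : PLoc p (ZMod Q)} {R R' : Rs p (ZMod Q) G} {n s : ℕ} {w : ℤ}
  {K K' K₀ : Ideal (AA (ZMod Q))} {x : G 0 → Cob Laz s} {u : G (s + 1) → AA (ZMod Q)}

namespace Rs.Near

theorem ic [DecidableEq (G 0)] {θ : G 0 → G 0 → Cob Laz 1} (h : Near R R' K₀ n)
    (hC : IC hQ R θ) : IC hQ R' θ :=
  ⟨⟨hC.cell.mc, h.th ▸ hC.cell.lk, h.deg ▸ hC.cell.wt⟩, h.deg ▸ hC.wt⟩

theorem Ph (h : Near R R' K₀ n) (hs : s ≤ n) (hK : Inv p K) (hx : x ∈ Fl hQ _ s K) :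
    Ph hQ R' s x - Ph hQ R s x ∈ ZA _ (K * K₀) := h.Phi hs hK hx

theorem rvJ (h : Near R R' K₀ n) (hs : s ≤ n) (hK : Inv p K) (hKK : K * K₀ ≤ K')
    (hx : RvJ hQ R s w K K' x u) : RvJ hQ R' s w K K' x u :=
  ⟨h.deg ▸ hx.cw, hx.fl, by
    simpa using add_mem (mem_BdJ_of_ZA (ZA_mono hKK (h.Ph hs hK hx.fl)))
      (h.BdJ_le hs hK hKK hx.bd)⟩

theorem rvJ_iff (h : Near R R' K₀ n) (hs : s ≤ n) (hK : Inv p K) (hKK : K * K₀ ≤ K') :
    RvJ hQ R' s w K K' x u ↔ RvJ hQ R s w K K' x u :=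
  ⟨h.symm.rvJ hs hK hKK, h.rvJ hs hK hKK⟩

theorem rv {a b r : ℕ} (h : Near R R' (II p (ZMod Q) ^ r) n) (hs : s ≤ n) (hb : b ≤ a + r)
    (hx : Rv hQ R s w a b x u) : Rv hQ R' s w a b x u :=
  (h.rvJ hs (inv_II.pow a) (pow_le hb) hx.rvJ).rv

theorem rv_iff {a b r : ℕ} (h : Near R R' (II p (ZMod Q) ^ r) n) (hs : s ≤ n) (hb : b ≤ a + r) :
    Rv hQ R' s w a b x u ↔ Rv hQ R s w a b x u := ⟨h.symm.rv hs hb, h.rv hs hb⟩

end Rs.Near

end Vale.Agent.P236EL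

end
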