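import Vale.Agent.P236J.Cmp
import Vale.Agent.P236EL.Red

/-!
# P236J / Tool : integral charts and their representatives in windows `K / K'` with `K J ≤ K'`
-/

noncomputable section

namespace Vale.Agent.P236EL

open Vale.Agent.P251.F Vale.Agent.P251.F.F3 Vale.Agent.P257.H80 LawRing MvPolynomial Ch

variable {p : ℕ} [hp : Fact p.Prime] {G : ℕ → Type} [∀ q, Fintype (G q)]
  {F : Type} [Field F]

namespace Rs

variable {L : Type} [CommRing L] {R : Rs p L G} {π : L →+* F} {J K K' K₀ K₁ M M' : Ideal (AA L)}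
  {m n s : ℕ} {ω w T : ℤ} {θ : CC L}

theorem OkJ.sd_sd (h : R.OkJ π J (s + 1) T) (hw : w ≤ T) (hK : Inv p K) (hKK : K * J ≤ K')
    {u : G s → AA L} (hu : u ∈ PA p (R.deg s) w K) : R.sd (s + 1) (R.sd s u) ∈ ZA _ K' :=
  ZA_mono hKK (Rs.sd_sd h.inv h.k1 hw hK hu)

theorem OkJ.sd_mem_CyJ (h : R.OkJ π J (s + 1) T) (hw : w ≤ T) (hK : Inv p K) (hKK : K * J ≤ K')
    {u : G s → AA L} (hu : u ∈ PA p (R.deg s) w K) : R.sd s u ∈ R.CyJ s w K K' :=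
  ⟨sd_mem_PA hK hu, h.sd_sd hw hK hKK hu⟩

theorem OkJ.sd_BdJ (h : R.OkJ π J (s + 1) T) (hw : w ≤ T) (hK : Inv p K) (hK' : Inv p K')
    (hKK : K * J ≤ K') {u : G (s + 1) → AA L} (hu : u ∈ R.BdJ s w K K') :
    R.sd (s + 1) u ∈ ZA _ K' := by
  obtain ⟨y, hy, h1⟩ := mem_BdJ.1 hu
  have h2 := add_mem (sd_mem_ZA (R := R) hK' h1) (h.sd_sd hw hK hKK hy)
  rwa [map_sub, sub_add_cancel] at h2

theorem star_mem_BdJ (h : R.OkJ π J n T) (hw : ω + w ≤ T) (e : m + s = n) (hK : Inv p K)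
    (hK' : Inv p K') (hK₀ : Inv p K₀) (hK₁ : Inv p K₁) (hKK : K * J ≤ K') (hM : K₀ * K ≤ M)
    (hM' : K₀ * K' ≤ M') (hM'' : K₁ * K ≤ M') (h1 : θ ∈ Loc p L m) (h2 : θ ∈ WC p L ω)
    (h3 : θ ∈ Fil p K₀) (h4 : alt p L (m + 2) θ ∈ Fil p K₁) {u : G (s + 1) → AA L}
    (hu : u ∈ R.BdJ s w K K') :
    R.star m (s + 1) (n + 1) (by omega) θ u ∈ R.BdJ n (ω + w) M M' := by
  obtain ⟨y, hy, h5⟩ := mem_BdJ.1 hu
  rw [← sub_add_cancel u (R.sd s y), map_add]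
  refine add_mem (mem_BdJ_of_ZA (ZA_mono hM' (R.star_mem_ZA hK₀ hK' _ _ _ _ h3 h5))) ?_
  rcases s with _ | s
  · rw [show R.sd 0 y = 0 from rfl, map_zero]
    exact zero_mem _
  have h6 := ZA_mono ((mul_assoc _ _ _).le.trans ((Ideal.mul_mono_right hKK).trans hM'))
    (star_leibniz h.inv h.k1 hw hK hK₀ (show s + 1 + m = n by omega) h1 h2 h3 hy)
  have h7 := ZA_mono hM'' (R.star_mem_ZA hK₁ hK (m + 1) (s + 1) (n + 1) (by omega) h4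
    fun i => (hy i).2)
  have h8 := PA_mono hM (star_mem_PA hK hK₀ (show s + 1 + m = n by omega) h1 h2 h3 hy)
  refine mem_BdJ.2 ⟨_, zsmul_mem h8 ((-1 : ℤ) ^ m), ?_⟩
  have h9 := zsmul_mem (sub_mem h6 h7) ((-1 : ℤ) ^ m)
  rwa [sub_right_comm, add_sub_cancel_left, smul_sub, neg_one_smul_smul, ← map_zsmul] at h9

theorem star_mem_CyJ (h : R.OkJ π J (n + 1) T) (hw : ω + w ≤ T) (e : m + s = n) (hK : Inv p K)
    (hK' : Inv p K') (hK₀ : Inv p K₀) (hK₁ : Inv p K₁) (hKK : K * J ≤ K') (hM : K₀ * K ≤ M)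
    (hM' : K₀ * K' ≤ M') (hM'' : K₁ * K ≤ M') (h1 : θ ∈ Loc p L m) (h2 : θ ∈ WC p L ω)
    (h3 : θ ∈ Fil p K₀) (h4 : alt p L (m + 2) θ ∈ Fil p K₁) {u : G (s + 1) → AA L}
    (hu : u ∈ R.CyJ s w K K') :
    R.star m (s + 1) (n + 1) (by omega) θ u ∈ R.CyJ n (ω + w) M M' := by
  have h6 := ZA_mono ((mul_assoc _ _ _).le.trans ((Ideal.mul_mono_right hKK).trans hM'))
    (star_leibniz h.inv h.k1 hw hK hK₀ (show s + 1 + m = n + 1 by omega) h1 h2 h3 hu.1)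
  have h7 := ZA_mono hM'' (R.star_mem_ZA hK₁ hK (m + 1) (s + 1) (n + 2) (by omega) h4
    fun i => (hu.1 i).2)
  have h8 := PA_mono hM (star_mem_PA hK hK₀ (show s + 1 + m = n + 1 by omega) h1 h2 h3 hu.1)
  have h9 := ZA_mono hM' (R.star_mem_ZA hK₀ hK' m (s + 2) (n + 2) (by omega) h3 hu.2)
  refine mem_CyJ.2 ⟨h8, ?_⟩
  have h11 := sub_mem (add_mem h7 (zsmul_mem h9 ((-1 : ℤ) ^ m))) h6
  rwa [sub_sub_cancel] at h11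

theorem OkJ.tens [Unique (G 0)] {ι : Type} [Fintype ι] [DecidableEq ι] {h0 : R.deg 0 default = 0}
    {h1 : R.th default default = 1} {Y : Cm p L ι} {T' : ℤ} (h : R.OkJ π J n T)
    (hT : ∀ c, T' - Y.d c ≤ T) : (R.tens h0 h1 Y).OkJ π J n T' :=
  ⟨h.surj, h.ker, h.nil, h.inv, h.k1.tens hT, h.k2.tens hT⟩

end Rs

namespace Hm

variable {L : Type} [CommRing L] {G' : ℕ → Type} [∀ q, Fintype (G' q)] {R : Rs p L G}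
  {R' : Rs p L G'} {f : ∀ q, G q → G' q → ℤ} {ω w : ℤ} {s : ℕ} {K K' : Ideal (AA L)}
  {u : G (s + 1) → AA L}

theorem BdJ (h : Hm R R' f ω) (hu : u ∈ R.BdJ s w K K') :
    zm _ (f (s + 1)) u ∈ R'.BdJ s (w + ω) K K' := by
  obtain ⟨y, hy, h1⟩ := Rs.mem_BdJ.1 hu
  exact Rs.mem_BdJ.2 ⟨_, zm_mem_PA (h.dg s) hy, by rw [h.sd, ← map_sub]; exact zm_mem_ZA _ h1⟩

theorem CyJ (h : Hm R R' f ω) (hu : u ∈ R.CyJ s w K K') :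
    zm _ (f (s + 1)) u ∈ R'.CyJ s (w + ω) K K' :=
  Rs.mem_CyJ.2 ⟨zm_mem_PA (h.dg _) hu.1, by rw [h.sd]; exact zm_mem_ZA _ hu.2⟩

end Hm

variable {Q : ℕ} {hQ : PLoc p (ZMod Q)} {R : Rs p (ZMod Q) G} {π : ZMod Q →+* F} {s : ℕ}
  {T w : ℤ} {J K K' K₀ K₁ M M' N : Ideal (AA (ZMod Q))}

namespace IC

variable [DecidableEq (G 0)] {θ : G 0 → G 0 → Cob Laz 1}

/-- `Ph` is a chain map modulo `K J` -/
theorem Ph_DDJ (hC : IC hQ R θ) (h : R.OkJ π J (s + 1) T) (hw : w ≤ T) (hK : Inv p K)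
    (hKK : K * J ≤ K') {x : G 0 → Cob Laz s} (hx : x ∈ CW p Laz (R.deg 0) w s)
    (hx' : x ∈ Fl hQ _ s K) :
    Ph hQ R (s + 1) (DD θ s x) - R.sd (s + 1) (Ph hQ R s x) ∈ ZA _ K' := by
  rw [Ph_apply, hC.rsP_DD]
  exact Rs.ZA_mono hKK (Rs.Phi_chain h.inv h.k1 hw hK (rsP_mem hQ hx hx'))

theorem sd_PhJ (hC : IC hQ R θ) (h : R.OkJ π J (s + 1) T) (hw : w ≤ T) (hK : Inv p K)
    (hK' : Inv p K') (hKK : K * J ≤ K') {x : G 0 → Cob Laz s}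
    (hx : x ∈ CW p Laz (R.deg 0) w s) (hx' : x ∈ Fl hQ _ s K)
    (h1 : DD θ s x ∈ Fl hQ _ (s + 1) K') : R.sd (s + 1) (Ph hQ R s x) ∈ ZA _ K' := by
  have h2 := sub_mem (Ph_mem_ZA (R := R) hK' h1) (hC.Ph_DDJ h hw hK hKK hx hx')
  rwa [sub_sub_cancel] at h2

theorem Ph_mem_CyJ (hC : IC hQ R θ) (h : R.OkJ π J (s + 1) T) (hw : w ≤ T) (hK : Inv p K)
    (hK' : Inv p K') (hKK : K * J ≤ K') {x : G 0 → Cob Laz s}
    (hx : x ∈ CW p Laz (R.deg 0) w s) (hx' : x ∈ Fl hQ _ s K)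
    (h1 : DD θ s x ∈ Fl hQ _ (s + 1) K') : Ph hQ R s x ∈ R.CyJ s w K K' :=
  ⟨Ph_mem hK hx hx', hC.sd_PhJ h hw hK hK' hKK hx hx' h1⟩

theorem Ph_DD_mem_BdJ (hC : IC hQ R θ) (h : R.OkJ π J (s + 1) T) (hw : w ≤ T) (hK : Inv p K)
    (hKK : K * J ≤ K') {x : G 0 → Cob Laz s} (hx : x ∈ CW p Laz (R.deg 0) w s)
    (hx' : x ∈ Fl hQ _ s K) : Ph hQ R (s + 1) (DD θ s x) ∈ R.BdJ (s + 1) w K K' :=
  Rs.mem_BdJ.2 ⟨_, Ph_mem hK hx hx', hC.Ph_DDJ h hw hK hKK hx hx'⟩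

theorem Ph_BFJ (hC : IC hQ R θ) (h : R.OkJ π J s T) (hw : w ≤ T) (hK : Inv p K)
    (hKK : K * J ≤ K') {b : G 0 → Cob Laz s} (hb : b ∈ BF hQ θ (R.deg 0) w K s) :
    Ph hQ R s b ∈ R.BdJ s w K K' := by
  rcases s with _ | s
  · rw [AddSubgroup.mem_bot.1 hb, map_zero]
    exact zero_mem _
  · obtain ⟨y, hy, rfl⟩ := hb
    exact hC.Ph_DD_mem_BdJ h hw hK hKK hy.1 hy.2

/-- injectivity in a window -/
theorem stepJ (hC : IC hQ R θ) (h : R.OkJ π J s T) (hw : w ≤ T) (hK : Inv p K) (hK' : Inv p K')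
    (hKK : K * J ≤ K') {x : G 0 → Cob Laz s} (hx : x ∈ CW p Laz (R.deg 0) w s)
    (hx' : x ∈ Fl hQ _ s K) (h1 : DD θ s x ∈ Fl hQ _ (s + 1) K') {u : G s → AA (ZMod Q)}
    (hu : u ∈ PA p (R.deg s) w K) (h2 : Ph hQ R s x - R.sd s u ∈ ZA _ K') :
    ∃ b ∈ BF hQ θ (R.deg 0) w K s, x - b ∈ Fl hQ _ s K' := by
  rw [Fl, AddSubgroup.mem_comap, hC.rsP_DD] at h1
  obtain ⟨y, hy, h3⟩ := Rs.Phi_injJ h hw hK hK' hKK (rsP_mem hQ hx hx') h1 hu h2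
  obtain ⟨b, hb, h5⟩ := hC.exists_BF hy
  exact ⟨b, hb, by rwa [Fl, AddSubgroup.mem_comap, map_sub, h5]⟩

/-- injectivity in a window -/
theorem stepB (hC : IC hQ R θ) (h : R.OkJ π J s T) (hw : w ≤ T) (hK : Inv p K) (hK' : Inv p K')
    (hKK : K * J ≤ K') {x : G 0 → Cob Laz s} (hx : x ∈ CW p Laz (R.deg 0) w s)
    (hx' : x ∈ Fl hQ _ s K) (h1 : DD θ s x ∈ Fl hQ _ (s + 1) K')
    (h2 : Ph hQ R s x ∈ R.BdJ s w K K') :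
    ∃ b ∈ BF hQ θ (R.deg 0) w K s, x - b ∈ Fl hQ _ s K' := by
  obtain ⟨u, hu, h3⟩ := Rs.mem_BdJ.1 h2
  exact hC.stepJ h hw hK hK' hKK hx hx' h1 hu h3

/-- surjectivity in a window -/
theorem surjJ (hC : IC hQ R θ) (h : R.OkJ π J (s + 1) T) (hw : w ≤ T) (hK : Inv p K)
    (hK' : Inv p K') (hKK : K * J ≤ K') {u : G (s + 1) → AA (ZMod Q)}
    (hu : u ∈ PA p (R.deg (s + 1)) w K) (h1 : R.sd (s + 1) u ∈ ZA _ K') :
    ∃ x ∈ CW p Laz (R.deg 0) w s, x ∈ Fl hQ _ s K ∧ DD θ s x ∈ Fl hQ _ (s + 1) K' ∧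
      ∃ u' ∈ PA p (R.deg s) w K, Ph hQ R s x - u - R.sd s u' ∈ ZA _ K' := by
  obtain ⟨y, hy, h2, h3⟩ := Rs.Phi_surjJ h hw hK hK' hKK hu h1
  obtain ⟨x, hx, h4, rfl⟩ := exists_rsP hQ hy
  exact ⟨x, hx, h4, by rwa [Fl, AddSubgroup.mem_comap, hC.rsP_DD], h3⟩

/-- surjectivity in a window -/
theorem exists_RvJ (hC : IC hQ R θ) (h : R.OkJ π J (s + 1) T) (hw : w ≤ T) (hK : Inv p K)
    (hK' : Inv p K') (hKK : K * J ≤ K') {u : G (s + 1) → AA (ZMod Q)} (hu : u ∈ R.CyJ s w K K') :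
    ∃ x, RvJ hQ R s w K K' x u ∧ DD θ s x ∈ Fl hQ _ (s + 1) K' := by
  obtain ⟨x, hx, h1, h2, h3⟩ := hC.surjJ h hw hK hK' hKK hu.1 hu.2
  exact ⟨x, ⟨hx, h1, Rs.mem_BdJ.2 h3⟩, h2⟩

/-- the cone of `Ph` is exact in a window -/
theorem coneJ (hC : IC hQ R θ) (h : R.OkJ π J (s + 1) T) (hw : w ≤ T) (hK : Inv p K)
    (hK' : Inv p K') (hKK : K * J ≤ K') {x : G 0 → Cob Laz (s + 1)}
    (hx : x ∈ CW p Laz (R.deg 0) w (s + 1)) (hx' : x ∈ Fl hQ _ (s + 1) K)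
    (h1 : DD θ (s + 1) x ∈ Fl hQ _ (s + 2) K') {u : G (s + 1) → AA (ZMod Q)}
    (hu : u ∈ PA p (R.deg (s + 1)) w K) (h2 : Ph hQ R (s + 1) x - R.sd (s + 1) u ∈ ZA _ K') :
    ∃ y, RvJ hQ R s w K K' y u ∧ x - DD θ s y ∈ Fl hQ _ (s + 1) K' := by
  rw [Fl, AddSubgroup.mem_comap, hC.rsP_DD] at h1
  obtain ⟨y, hy, h3, u', hu', h4⟩ := Rs.Phi_coneJ h hw hK hK' hKK (rsP_mem hQ hx hx') h1 hu h2
  obtain ⟨Y, hY, h5, rfl⟩ := exists_rsP hQ hy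
  refine ⟨Y, ⟨hY, h5, Rs.mem_BdJ.2 ⟨-u', neg_mem hu', ?_⟩⟩, by
    rwa [Fl, AddSubgroup.mem_comap, map_sub, hC.rsP_DD]⟩
  have h6 := neg_mem h4
  rw [map_neg, Ph_apply]
  convert h6 using 1
  abel

/-- **the basic induction along a filtration** -/
theorem spanJ (hC : IC hQ R θ) (h : R.OkJ π J s T) (hw : w ≤ T) {𝒦 𝓛 : ℕ → Ideal (AA (ZMod Q))}
    (h𝒦 : ∀ k, Inv p (𝒦 k)) (h𝓛 : ∀ k, Inv p (𝓛 k)) (h1 : ∀ k, 𝒦 k ≤ 𝓛 k)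
    (h2 : ∀ k, 𝓛 k * J ≤ 𝒦 (k + 1)) {𝒳 ℬ 𝒵 : AddSubgroup (G 0 → Cob Laz s)}
    (h𝒳 : 𝒳 ≤ CW p Laz (R.deg 0) w s) (hℬ : ℬ ≤ 𝒳) (h𝒵 : 𝒵 ≤ 𝒳) {k₀ n : ℕ} (hM : k₀ ≤ n)
    (hb : ∀ k, k₀ ≤ k → BF hQ θ (R.deg 0) w (𝓛 k) s ≤ ℬ)
    (hd : ∀ x ∈ 𝒳, ∀ k < n, DD θ s x ∈ Fl hQ _ (s + 1) (𝒦 (k + 1)))
    (h3 : ∀ k, k₀ ≤ k → k < n → ∀ x ∈ 𝒳, x ∈ Fl hQ _ s (𝒦 k) →
      ∃ y ∈ PA p (R.deg s) w (𝓛 k), ∃ z ∈ 𝒵, z ∈ Fl hQ _ s (𝓛 k) ∧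
        Ph hQ R s x - R.sd s y - Ph hQ R s z ∈ ZA _ (𝒦 (k + 1)))
    {x : G 0 → Cob Laz s} (hx : x ∈ 𝒳) (hx' : x ∈ Fl hQ _ s (𝒦 k₀)) :
    ∃ b ∈ ℬ, ∃ z ∈ 𝒵, x - b - z ∈ Fl hQ _ s (𝒦 n) := by
  induction n, hM using Nat.le_induction with
  | base => exact ⟨0, zero_mem _, 0, zero_mem _, by simpa using hx'⟩
  | succ k hk ih =>
    obtain ⟨b, hb', z, hz, h4⟩ := ih (fun x hx j hj => hd x hx j (by omega))
      fun j hj hj' => h3 j hj (by omega)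
    have h5 : x - b - z ∈ 𝒳 := sub_mem (sub_mem hx (hℬ hb')) (h𝒵 hz)
    obtain ⟨y, hy, z', hz', h6, h7⟩ := h3 k hk (Nat.lt_succ_self k) _ h5 h4
    have h8 := sub_mem h5 (h𝒵 hz')
    obtain ⟨b', h9, h11⟩ := hC.stepJ h hw (h𝓛 k) (h𝒦 (k + 1)) (h2 k) (h𝒳 h8)
      (sub_mem (Fl_mono hQ (h1 k) h4) h6) (hd _ h8 k (Nat.lt_succ_self k)) hy
      (by rwa [map_sub, sub_right_comm])
    refine ⟨b + b', add_mem hb' (hb k hk h9), z + z', add_mem hz hz', ?_⟩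
    convert h11 using 1
    abel

/-- cocycles of large filtration are coboundaries -/
theorem mem_BQ_of_Fl (hC : IC hQ R θ) {m j : ℕ} (hm : (p : ZMod Q) ^ m = 0)
    (hj : ∀ c, w - R.deg 0 c < j) {x : G 0 → Cob Laz s} (hx : x ∈ ZC p θ (R.deg 0) w Q s)
    (h0 : x ∈ Fl hQ _ s (II p (ZMod Q) ^ (m + j))) :
    ∃ b ∈ BF hQ θ (R.deg 0) w ⊥ s, x - b ∈ QW p Laz (R.deg 0) w Q s := by
  obtain ⟨h2, c, hc, h4⟩ := hx
  obtain ⟨b, hb, u, hu, h5⟩ := hC.fin dvd_rfl hm hj h2 (Fl_mono hQ le_sup_left h0) hc h4.symm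
  exact ⟨b, hb, mem_QW.2 ⟨u, hu, by rw [h5, add_sub_cancel_left]⟩⟩

end IC

namespace RvJ

variable {x x' : G 0 → Cob Laz s} {u u' : G (s + 1) → AA (ZMod Q)}

theorem self (hx : x ∈ CW p Laz (R.deg 0) w s) (hx' : x ∈ Fl hQ _ s K) :
    RvJ hQ R s w K K' x (Ph hQ R s x) := ⟨hx, hx', by rw [sub_self]; exact zero_mem _⟩

theorem self_top (hx : x ∈ CW p Laz (R.deg 0) w s) : RvJ hQ R s w ⊤ K' x (Ph hQ R s x) :=
  self hx (mem_Fl_top hQ x)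

theorem zero : RvJ hQ R s w K K' 0 0 :=
  ⟨zero_mem _, zero_mem _, by rw [map_zero, sub_self]; exact zero_mem _⟩

theorem add (h : RvJ hQ R s w K K' x u) (h' : RvJ hQ R s w K K' x' u') :
    RvJ hQ R s w K K' (x + x') (u + u') :=
  ⟨add_mem h.cw h'.cw, add_mem h.fl h'.fl, by
    rw [map_add, add_sub_add_comm]; exact add_mem h.bd h'.bd⟩

theorem zsmul (h : RvJ hQ R s w K K' x u) (c : ℤ) : RvJ hQ R s w K K' (c • x) (c • u) :=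
  ⟨zsmul_mem h.cw c, zsmul_mem h.fl c, by rw [map_zsmul, ← smul_sub]; exact zsmul_mem h.bd c⟩

theorem nsmul (h : RvJ hQ R s w K K' x u) (c : ℕ) : RvJ hQ R s w K K' (c • x) (c • u) := by
  simpa using h.zsmul c

theorem neg (h : RvJ hQ R s w K K' x u) : RvJ hQ R s w K K' (-x) (-u) := by
  simpa using h.zsmul (-1)

theorem sub (h : RvJ hQ R s w K K' x u) (h' : RvJ hQ R s w K K' x' u') :
    RvJ hQ R s w K K' (x - x') (u - u') := by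
  simpa only [sub_eq_add_neg] using h.add h'.neg

theorem mono (h : RvJ hQ R s w K K' x u) (ha : K ≤ M) (hb : K' ≤ M') : RvJ hQ R s w M M' x u :=
  ⟨h.cw, Fl_mono hQ ha h.fl, Rs.BdJ_mono ha hb h.bd⟩

theorem congr (h : RvJ hQ R s w K K' x u) (h' : u - u' ∈ R.BdJ s w K K') :
    RvJ hQ R s w K K' x u' := ⟨h.cw, h.fl, by simpa using add_mem h.bd h'⟩

theorem cast (h : RvJ hQ R s w K K' x u) {w' : ℤ} (e : w = w') (e' : x = x') (e'' : u = u') :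
    RvJ hQ R s w' K K' x' u' := e ▸ e' ▸ e'' ▸ h

theorem mem_ZA (h : RvJ hQ R s w K K' x u) (hK : Inv p K) (hab : K' ≤ K) : u ∈ ZA _ K := by
  simpa using sub_mem (Ph_mem_ZA (R := R) hK h.fl) (Rs.BdJ_le_ZA hK le_rfl hab h.bd)

theorem unique (h : RvJ hQ R s w K K' x u) (h' : RvJ hQ R s w K K' x u') :
    u - u' ∈ R.BdJ s w K K' := by simpa using sub_mem h'.bd h.bd

theorem of_Fl' (hK' : Inv p K') (hx : x ∈ CW p Laz (R.deg 0) w s) (h1 : x ∈ Fl hQ _ s K)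
    (h2 : x ∈ Fl hQ _ s K') : RvJ hQ R s w K K' x 0 :=
  ⟨hx, h1, by rw [sub_zero]; exact Rs.mem_BdJ_of_ZA (Ph_mem_ZA hK' h2)⟩

theorem of_Fl (hK' : Inv p K') (hx : x ∈ CW p Laz (R.deg 0) w s) (hab : K' ≤ K)
    (hx' : x ∈ Fl hQ _ s K') : RvJ hQ R s w K K' x 0 := of_Fl' hK' hx (Fl_mono hQ hab hx') hx'

theorem of_QW (hx : x ∈ QW p Laz (R.deg 0) w Q s) : RvJ hQ R s w K K' x 0 :=
  (of_Fl inv_bot (QW_le_CW hx) le_rfl (QW_le_Fl _ hx)).mono bot_le bot_le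

/-- changing the chart by a term of high filtration -/
theorem of_sub (h : RvJ hQ R s w K K' x u) (hK' : Inv p K') (hab : K' ≤ K)
    (hx : x' ∈ CW p Laz (R.deg 0) w s) (hx' : x' - x ∈ Fl hQ _ s K') : RvJ hQ R s w K K' x' u := by
  simpa using h.add (of_Fl hK' (sub_mem hx h.cw) hab hx')

/-- left multiplication by a cochain of filtration `K₀` with differential of filtration `K₁` -/
theorem lc {m n : ℕ} (h : RvJ hQ R s w K K' x u) (hR : R.OkJ π J n T) {ω : ℤ} (hw : ω + w ≤ T)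
    (e : m + s = n) (hK : Inv p K) (hK' : Inv p K') (hK₀ : Inv p K₀) (hK₁ : Inv p K₁)
    (hKK : K * J ≤ K') (hM : K₀ * K ≤ M) (hM' : K₀ * K' ≤ M') (hM'' : K₁ * K ≤ M') {t : Cob Laz m}
    (ht : Cob.IsWt (((p : ℤ) - 1) * ω) t) (ht' : rs hQ m t ∈ Fil p K₀)
    (hd : rs hQ (m + 1) (Cob.d m t) ∈ Fil p K₁) :
    RvJ hQ R n (ω + w) M M' (lc _ e t x) (R.star m (s + 1) (n + 1) (by omega) (rs hQ m t) u) := by
  refine ⟨lc_mem_CW e ht h.cw, Fl_mono hQ hM (lc_mem_Fl e hK ht' h.fl), ?_⟩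
  rw [Ph_lc e t h.cw, ← map_sub]
  exact Rs.star_mem_BdJ hR hw e hK hK' hK₀ hK₁ hKK hM hM' hM'' (rs_mem_Loc hQ m t)
    (rs_mem_WC hQ ht) ht' (rs_d hQ m t ▸ hd) h.bd

/-- left multiplication by a cocycle -/
theorem lcz {m n : ℕ} (h : RvJ hQ R s w K K' x u) (hR : R.OkJ π J n T) {ω : ℤ} (hw : ω + w ≤ T)
    (e : m + s = n) (hK : Inv p K) (hK' : Inv p K') (hKK : K * J ≤ K') {t : Cob Laz m}
    (ht : Cob.IsWt (((p : ℤ) - 1) * ω) t) (hd : (Q : Cob Laz (m + 1)) ∣ Cob.d m t) :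
    RvJ hQ R n (ω + w) K K' (P236EL.lc _ e t x)
      (R.star m (s + 1) (n + 1) (by omega) (rs hQ m t) u) :=
  h.lc hR hw e hK hK' inv_top inv_bot hKK Ideal.mul_le_right Ideal.mul_le_right
    (Ideal.mul_le_left.trans bot_le) ht (by rw [Fil_top]; trivial) (rs_of_dvd hd _)

theorem lc_arr (h : RvJ hQ R s w K K' x u) (hR : R.OkJ π J (s + 1) T) {ω : ℤ} (hw : ω + w ≤ T)
    (e : 1 + s = s + 1) (hK : Inv p K) (hK' : Inv p K') (hKK : K * J ≤ K') {t : Cob Laz 1}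
    (ht : Cob.IsWt (((p : ℤ) - 1) * ω) t) {g : GG (ZMod Q)} (hg : rs hQ 1 t = (univ _).arr p 0 g)
    (hd : (Q : Cob Laz 2) ∣ Cob.d 1 t) :
    RvJ hQ R (s + 1) (ω + w) K K' (P236EL.lc _ e t x) (R.dl s g u) := by
  have h1 := h.lcz hR hw e hK hK' hKK ht hd
  rwa [hg, Rs.star_arr] at h1

theorem lc_pt (h : RvJ hQ R s w K K' x u) (hR : R.OkJ π J s T) {ω : ℤ} (hw : ω + w ≤ T)
    (e : 0 + s = s) (hK : Inv p K) (hK' : Inv p K') (hK₀ : Inv p K₀) (hK₁ : Inv p K₁)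
    (hKK : K * J ≤ K') (hM : K₀ * K ≤ M) (hM' : K₀ * K' ≤ M') (hM'' : K₁ * K ≤ M') {t : Cob Laz 0}
    (ht : Cob.IsWt (((p : ℤ) - 1) * ω) t) {a : AA (ZMod Q)} (ha : a ∈ K₀)
    (hg : rs hQ 0 t = (univ _).pt p 0 a) (hd : rs hQ 1 (Cob.d 0 t) ∈ Fil p K₁) :
    RvJ hQ R s (ω + w) M M' (P236EL.lc _ e t x) fun i => a * u i := by
  have h1 := h.lc hR hw e hK hK' hK₀ hK₁ hKK hM hM' hM'' ht
    (hg ▸ Ideal.mem_map_of_mem _ ha) hd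
  rwa [hg, Rs.star_pt] at h1

theorem lc_vm {k : ℕ} (h : RvJ hQ R s w K K' x u) (hR : R.OkJ π J s T) {ω : ℤ} (hw : ω + w ≤ T)
    (e : 0 + s = s) (hK : Inv p K) (hK' : Inv p K') (hK₀ : Inv p K₀) (hKK : K * J ≤ K')
    (hM : K₀ * K ≤ M) (hM' : K₀ * K' ≤ M') (ha : X 0 ^ k ∈ K₀) {t : Cob Laz 0}
    (ht : Cob.IsWt (((p : ℤ) - 1) * ω) t) (hg : rs hQ 0 t = (univ _).pt p 0 (X 0 ^ k))
    (hd : (Q : Cob Laz 1) ∣ Cob.d 0 t) :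
    RvJ hQ R s (ω + w) M M' (P236EL.lc _ e t x) (vm k u) :=
  h.lc_pt hR hw e hK hK' hK₀ inv_bot hKK hM hM' (Ideal.mul_le_left.trans bot_le) ht ha hg
    (rs_of_dvd hd _)

theorem lc_bm {k : ℕ} (h : RvJ hQ R s w K K' x u) (hR : R.OkJ π J (s + 2) T) {ω : ℤ}
    (hw : ω + w ≤ T) (e : 2 + s = s + 2) (hK : Inv p K) (hK' : Inv p K') (hKK : K * J ≤ K')
    {t : Cob Laz 2} (ht : Cob.IsWt (((p : ℤ) - 1) * ω) t)
    (hg : rs hQ 2 t = (univ _).arr p 0 (X 0 ^ (2 * k)) * (univ _).arr p 1 (X 0 ^ k) +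
      (univ _).arr p 0 (X 0 ^ k) * (univ _).arr p 1 (X 0 ^ (2 * k)))
    (hd : (Q : Cob Laz 3) ∣ Cob.d 2 t) :
    RvJ hQ R (s + 2) (ω + w) K K' (P236EL.lc _ e t x) (R.bm s k u) := by
  have h1 := h.lcz hR hw e hK hK' hKK ht hd
  rwa [hg, Rs.star_add, Rs.star_arr2, Rs.star_arr2] at h1

/-- cellular maps -/
theorem zm {G' : ℕ → Type} [∀ q, Fintype (G' q)] {R' : Rs p (ZMod Q) G'}
    {f : ∀ q, G q → G' q → ℤ} {ω : ℤ} (hf : Hm R R' f ω) (h : RvJ hQ R s w K K' x u) :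
    RvJ hQ R' s (w + ω) K K' (zm _ (f 0) x) (zm _ (f (s + 1)) u) :=
  ⟨zm_mem_CW (hf.dg 0) h.cw, zm_mem_Fl _ h.fl, by rw [hf.Ph, ← map_sub]; exact hf.BdJ h.bd⟩

variable [DecidableEq (G 0)] {θ : G 0 → G 0 → Cob Laz 1}

theorem of_BF (hC : IC hQ R θ) (hR : R.OkJ π J s T) (hw : w ≤ T) (hK : Inv p K)
    (hKK : K * J ≤ K') (hx : x ∈ BF hQ θ (R.deg 0) w K s) : RvJ hQ R s w K K' x 0 :=
  ⟨BC_le_CW hC.wt w s (BF_le_BC hQ _ _ _ _ _ hx), hC.BF_le_Fl hK hx, by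
    rw [sub_zero]; exact hC.Ph_BFJ hR hw hK hKK hx⟩

/-- the differential -/
theorem DD (h : RvJ hQ R s w K K' x u) (hC : IC hQ R θ) (hR : R.OkJ π J (s + 1) T) (hw : w ≤ T)
    (hK : Inv p K) (hK' : Inv p K') (hKK : K * J ≤ K') :
    Ph hQ R (s + 1) (DD θ s x) - R.sd (s + 1) u ∈ ZA _ K' := by
  have h3 := add_mem (hC.Ph_DDJ hR hw hK hKK h.cw h.fl) (hR.sd_BdJ hw hK hK' hKK h.bd)
  rwa [map_sub, sub_add_sub_cancel] at h3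

/-- the representative of a cocycle of the window is a cycle -/
theorem sd_mem (h : RvJ hQ R s w K K' x u) (hC : IC hQ R θ) (hR : R.OkJ π J (s + 1) T)
    (hw : w ≤ T) (hK : Inv p K) (hK' : Inv p K') (hKK : K * J ≤ K')
    (hd : P236EL.DD θ s x ∈ Fl hQ _ (s + 1) K') : R.sd (s + 1) u ∈ ZA _ K' := by
  simpa using sub_mem (Ph_mem_ZA (R := R) hK' hd) (h.DD hC hR hw hK hK' hKK)

/-- raising the filtration -/
theorem raise (h : RvJ hQ R s w K K' x u) (hC : IC hQ R θ) (hR : R.OkJ π J s T) (hw : w ≤ T)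
    (hK : Inv p K) (hM : Inv p M) (hKK : K * J ≤ K') (hk : K' ≤ M) (hu : u ∈ ZA _ M)
    (hd : P236EL.DD θ s x ∈ Fl hQ _ (s + 1) M) :
    ∃ y ∈ BF hQ θ (R.deg 0) w K s, x - y ∈ Fl hQ _ s M ∧ RvJ hQ R s w K K' (x - y) u := by
  obtain ⟨v, hv, h1⟩ := Rs.mem_BdJ.1 h.bd
  obtain ⟨y, hy, h2⟩ := hC.stepJ hR hw hK hM (hKK.trans hk) h.cw h.fl hd hv (by
      have h3 := add_mem (Rs.ZA_mono hk h1) hu
      rwa [sub_right_comm, sub_add_cancel] at h3)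
  exact ⟨y, hy, h2, by simpa using h.sub (of_BF hC hR hw hK hKK hy)⟩

/-- improving the precision -/
theorem refine (h : RvJ hQ R s w K K' x u) (hC : IC hQ R θ) (hR : R.OkJ π J (s + 1) T)
    (hw : w ≤ T) (hK : Inv p K) (hN : Inv p N) (hn : K * J ≤ N) (hu : u ∈ R.CyJ s w K N)
    (hd : P236EL.DD θ s x ∈ Fl hQ _ (s + 1) N) {S : AddSubgroup (G (s + 1) → AA (ZMod Q))}
    (h3 : R.CyJ s w K' N ≤ S ⊔ R.BdJ s w K M') : ∃ v ∈ S, RvJ hQ R s w K M' x (u + v) := by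
  obtain ⟨y, hy, h1⟩ := Rs.mem_BdJ.1 h.bd
  have h2 := sub_mem (sub_mem (hC.Ph_mem_CyJ hR hw hK hN hn h.cw h.fl hd) hu)
    (hR.sd_mem_CyJ hw hK hn hy)
  obtain ⟨v, hv, e, he, h5⟩ := AddSubgroup.mem_sup.1
    (h3 (Rs.mem_CyJ.2 ⟨fun i => ⟨(h2.1 i).1, h1 i⟩, h2.2⟩))
  refine ⟨v, hv, h.cw, h.fl, ?_⟩
  rw [← sub_sub, sub_eq_iff_eq_add.1 h5.symm, add_assoc, add_sub_cancel_left]
  exact add_mem he (Rs.sd_mem_BdJ hy)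

theorem zero_of_BQ (hC : IC hQ R θ) (hR : R.OkJ π J s T) (hw : w ≤ T) (hb : J ≤ K')
    (hx : x ∈ BQ p θ (R.deg 0) w Q s) : RvJ hQ R s w ⊤ K' x 0 := by
  obtain ⟨e, he, v, hv, rfl⟩ := P236EL.mem_BQ.1 hx
  rw [← add_zero (0 : G (s + 1) → AA (ZMod Q))]
  refine (of_BF hC hR hw inv_top (Ideal.mul_le_right.trans hb) ?_).add
    (of_QW (mem_QW.2 ⟨v, hv, rfl⟩))
  rcases s with _ | s
  · exact he
  · obtain ⟨y, hy, rfl⟩ := he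
    exact ⟨y, ⟨hy, mem_Fl_top hQ y⟩, rfl⟩

/-- **non-vanishing modulo `J`** -/
theorem of_BQ_top (h : RvJ hQ R s w K K' x u) (hC : IC hQ R θ) (hR : R.OkJ π J s T) (hw : w ≤ T)
    (hb : J ≤ K') (hx : x ∈ BQ p θ (R.deg 0) w Q s) : u ∈ R.BdJ s w ⊤ K' := by
  simpa using (h.mono le_top le_rfl).unique (zero_of_BQ hC hR hw hb hx)

end RvJ

/-! ### connecting maps -/

section conn

variable {GA GB : ℕ → Type} [∀ q, Fintype (GA q)] [∀ q, Fintype (GB q)]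
  {RA : Rs p (ZMod Q) GA} {RB : Rs p (ZMod Q) GB} {i : ∀ q, GA q → G q → ℤ}
  {f : ∀ q, G q → GB q → ℤ} {ρ : ∀ q, G q → GA q → ℤ} {σ : ∀ q, GB q → G q → ℤ} {ω ω' : ℤ}

/-- a chart is represented by a lift of a representative of its image, up to the subcomplex -/
theorem Ses.liftJ (H : Ses RA R RB i f ρ σ ω ω') (hK : Inv p K) {y : G 0 → Cob Laz s}
    (hy : y ∈ CW p Laz (R.deg 0) w s) (hy' : y ∈ Fl hQ _ s K)
    {u : GB (s + 1) → AA (ZMod Q)} (h : RvJ hQ RB s (w + ω') K K' (zm _ (f 0) y) u) :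
    ∃ v ∈ PA p (RA.deg (s + 1)) (w + -ω) K,
      RvJ hQ R s w K K' y (zm _ (σ (s + 1)) u + zm _ (i (s + 1)) v) := by
  obtain ⟨v, hv, h1⟩ := Rs.mem_BdJ.1 h.bd
  have h2 := zm_mem_PA (H.hσ s) hv
  rw [add_neg_cancel_right] at h2
  refine ⟨_, zm_mem_PA (H.hρ _) (sub_mem (Ph_mem hK hy hy')
    (Rs.sd_mem_PA hK h2)), hy, hy', Rs.mem_BdJ.2 ⟨_, h2, ?_⟩⟩
  have h3 : zm _ (f (s + 1)) (R.sd s (zm _ (σ s) v)) = RB.sd s v := by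
    rcases s with _ | s
    · exact map_zero _
    · rw [← H.hf.sd, H.fσ]
  have h4 := zm_mem_ZA (σ (s + 1)) h1
  rw [H.hf.Ph, ← h3, sub_right_comm, ← map_sub, map_sub, eq_sub_of_add_eq (H.sp s _)] at h4
  convert h4 using 1
  abel

/-- **the connecting map** -/
theorem Ses.connJ [DecidableEq (G 0)] {θ : G 0 → G 0 → Cob Laz 1} (H : Ses RA R RB i f ρ σ ω ω')
    (hC : IC hQ R θ) (hR : R.OkJ π J (s + 1) T) (hw : w ≤ T) (hK : Inv p K) (hK' : Inv p K')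
    (hKK : K * J ≤ K') {y : G 0 → Cob Laz s} (hy : y ∈ CW p Laz (R.deg 0) w s)
    (hy' : y ∈ Fl hQ _ s K) {u : GB (s + 1) → AA (ZMod Q)}
    (h : RvJ hQ RB s (w + ω') K K' (zm _ (f 0) y) u) {z : GA 0 → Cob Laz (s + 1)}
    (hz : z ∈ CW p Laz (RA.deg 0) (w + -ω) (s + 1)) (hz' : z ∈ Fl hQ _ (s + 1) K)
    (hd : DD θ s y - zm _ (i 0) z ∈ Fl hQ _ (s + 1) K') :
    RvJ hQ RA (s + 1) (w + -ω) K K' z (zm _ (ρ (s + 2)) (R.sd (s + 1) (zm _ (σ (s + 1)) u))) := by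
  obtain ⟨v, hv, h1⟩ := H.liftJ hK hy hy' h
  refine ⟨hz, hz', Rs.mem_BdJ.2 ⟨v, hv, ?_⟩⟩
  have h2 := zm_mem_ZA (ρ (s + 2))
    (sub_mem (h1.DD hC hR hw hK hK' hKK) (Ph_mem_ZA (R := R) hK' hd))
  rw [map_sub (Ph hQ R _), sub_sub_sub_cancel_left, H.hi.Ph, map_add, H.hi.sd, map_sub, map_add,
    H.ρi, H.ρi] at h2
  rwa [sub_sub]

end conn

end Vale.Agent.P236EL

end
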